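import Mathlib.Analysis.Calculus.ContDiff.Defs
import Mathlib.Geometry.Euclidean.Volume.Measure
import Mathlib.Order.CompletePartialOrder

/-!
# P219: Cartan-Hadamard manifolds in global coordinates

By the Cartan-Hadamard theorem every Cartan-Hadamard `n`-manifold is `ℝ^n` with a complete smooth
metric `g = (g_ij)` of nonpositive sectional curvature.  All notions below are the classical
coordinate expressions.
-/

open scoped ContDiff ENNReal
open MeasureTheory

namespace Vale.Agent.Lib.P219.Co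

noncomputable section

/-- `ℝ^n` -/
abbrev E (n : ℕ) : Type := EuclideanSpace ℝ (Fin n)

/-- partial derivative `∂_i f (x)` -/
def pd {n : ℕ} (i : Fin n) (f : E n → ℝ) (x : E n) : ℝ :=
  fderiv ℝ f x (EuclideanSpace.single i 1)

/-- `(g_ij)` is a smooth Riemannian metric on `ℝ^n`. -/
structure IsMetric {n : ℕ} (g : E n → Matrix (Fin n) (Fin n) ℝ) : Prop where
  smooth : ∀ i j, ContDiff ℝ ∞ (fun x => g x i j)
  symm : ∀ x i j, g x i j = g x j i
  pos : ∀ x (v : Fin n → ℝ), v ≠ 0 → 0 < ∑ i, ∑ j, g x i j * v i * v j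

/-- inner product `⟨v, w⟩_x = g_ij v^i w^j` -/
def ip {n : ℕ} (g : E n → Matrix (Fin n) (Fin n) ℝ) (x : E n) (v w : Fin n → ℝ) : ℝ :=
  ∑ i, ∑ j, g x i j * v i * w j

/-- Christoffel symbols `Γ^k_ij = (1/2) g^kl (∂_i g_jl + ∂_j g_il - ∂_l g_ij)` -/
def christoffel {n : ℕ} (g : E n → Matrix (Fin n) (Fin n) ℝ) (k i j : Fin n) (x : E n) : ℝ :=
  (1 / 2) * ∑ l, (g x)⁻¹ k l * (pd i (fun y => g y j l) x + pd j (fun y => g y i l) x
    - pd l (fun y => g y i j) x)

/-- Riemann curvature tensor: `R(∂_i, ∂_j) ∂_k = R^l_kij ∂_l` -/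
def riemann {n : ℕ} (g : E n → Matrix (Fin n) (Fin n) ℝ) (l k i j : Fin n) (x : E n) : ℝ :=
  pd i (christoffel g l j k) x - pd j (christoffel g l i k) x
    + ∑ m, (christoffel g l i m x * christoffel g m j k x
      - christoffel g l j m x * christoffel g m i k x)

/-- the vector `R(u, v) w` at `x` -/
def curvature {n : ℕ} (g : E n → Matrix (Fin n) (Fin n) ℝ) (x : E n) (u v w : Fin n → ℝ) :
    Fin n → ℝ :=
  fun l => ∑ k, ∑ i, ∑ j, riemann g l k i j x * u i * v j * w k

/-- sectional curvature of the plane spanned by `u` and `v` at `x` -/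
def sectional {n : ℕ} (g : E n → Matrix (Fin n) (Fin n) ℝ) (x : E n) (u v : Fin n → ℝ) : ℝ :=
  ip g x (curvature g x u v v) u / (ip g x u u * ip g x v v - ip g x u v ^ 2)

/-- `c` (with velocity `v`) is a geodesic defined for all times: `c'' ^k = - Γ^k_ij c'^i c'^j` -/
structure IsGeodesic {n : ℕ} (g : E n → Matrix (Fin n) (Fin n) ℝ) (c v : ℝ → E n) : Prop where
  velocity : ∀ t k, HasDerivAt (fun s => c s k) (v t k) t
  equation : ∀ t k, HasDerivAt (fun s => v s k)
    (-∑ i, ∑ j, christoffel g k i j (c t) * v t i * v t j) t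

/-- `(ℝ^n, g)` is a Cartan-Hadamard manifold: geodesically complete, sectional curvature `≤ 0`. -/
structure IsCartanHadamard {n : ℕ} (g : E n → Matrix (Fin n) (Fin n) ℝ) : Prop where
  metric : IsMetric g
  complete : ∀ p w : E n, ∃ c v : ℝ → E n, IsGeodesic g c v ∧ c 0 = p ∧ v 0 = w
  nonpos : ∀ x (u v : Fin n → ℝ), LinearIndependent ℝ ![u, v] → sectional g x u v ≤ 0

/-- `√det g` -/
def density {n : ℕ} (g : E n → Matrix (Fin n) (Fin n) ℝ) (x : E n) : ℝ := Real.sqrt (g x).det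

/-- Riemannian volume measure `√det g dx` -/
def vol {n : ℕ} (g : E n → Matrix (Fin n) (Fin n) ℝ) : Measure (E n) :=
  volume.withDensity fun x => ENNReal.ofReal (density g x)

/-- Riemannian divergence `(1/√det g) ∂_i (√det g X^i)` -/
def divergence {n : ℕ} (g : E n → Matrix (Fin n) (Fin n) ℝ) (X : E n → E n) (x : E n) : ℝ :=
  (density g x)⁻¹ * ∑ i, pd i (fun y => density g y * X y i) x

/-- `X` is a compactly supported `C^1` vector field with `|X|_g ≤ 1` -/
structure IsTestField {n : ℕ} (g : E n → Matrix (Fin n) (Fin n) ℝ) (X : E n → E n) : Prop where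
  smooth : ContDiff ℝ 1 X
  supp : HasCompactSupport X
  le_one : ∀ x, ∑ i, ∑ j, g x i j * X x i * X x j ≤ 1

/-- De Giorgi perimeter: supremum of `∫_Ω div X dvol` over all test fields -/
def perimeter {n : ℕ} (g : E n → Matrix (Fin n) (Fin n) ℝ) (Ω : Set (E n)) : ℝ≥0∞ :=
  ⨆ (X : E n → E n) (_ : IsTestField g X), ENNReal.ofReal (∫ x in Ω, divergence g X x ∂(vol g))

/-- `{ρ < 0}` is a domain (bounded, open, smooth boundary `{ρ = 0}`) with defining function `ρ` -/
structure IsDefiningFunction {n : ℕ} (ρ : E n → ℝ) : Prop where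
  smooth : ContDiff ℝ ∞ ρ
  bounded : Bornology.IsBounded {x | ρ x < 0}
  regular : ∀ x, ρ x = 0 → ∃ i, pd i ρ x ≠ 0

/-- Riemannian area of the hypersurface `{ρ = 0}`: the area element is
`√det g · √(g^ij ∂_i ρ ∂_j ρ) / √(Σ (∂_i ρ)²) dH^{n-1}`, `H^{n-1}` Euclidean Hausdorff measure. -/
def area {n : ℕ} (g : E n → Matrix (Fin n) (Fin n) ℝ) (ρ : E n → ℝ) : ℝ≥0∞ :=
  ∫⁻ x in {x | ρ x = 0}, ENNReal.ofReal
    (density g x * Real.sqrt (∑ i, ∑ j, (g x)⁻¹ i j * pd i ρ x * pd j ρ x)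
      / Real.sqrt (∑ i, pd i ρ x ^ 2)) ∂(Measure.euclideanHausdorffMeasure (n - 1))

/-- volume of the Euclidean unit ball -/
def ballVolume (n : ℕ) : ℝ := (volume (Metric.ball (0 : E n) 1)).toReal

/-- Euclidean isoperimetric profile `n ω_n^{1/n} V^{(n-1)/n}` -/
def profile (n : ℕ) (V : ℝ≥0∞) : ℝ≥0∞ :=
  ENNReal.ofReal (n * ballVolume n ^ ((1 : ℝ) / n)) * V ^ (((n : ℝ) - 1) / n)

/-- The inequality of the Cartan-Hadamard conjecture in dimension `n` (`κ = 0`): for bounded
measurable sets with the perimeter, and for domains with smooth boundary with the area. -/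
def CartanHadamardInequality (n : ℕ) : Prop :=
  ∀ g : E n → Matrix (Fin n) (Fin n) ℝ, IsCartanHadamard g →
    (∀ Ω : Set (E n), Bornology.IsBounded Ω → MeasurableSet Ω →
      profile n (vol g Ω) ≤ perimeter g Ω) ∧
    (∀ ρ : E n → ℝ, IsDefiningFunction ρ → profile n (vol g {x | ρ x < 0}) ≤ area g ρ)

end

end Vale.Agent.Lib.P219.Co
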