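import Mathlib.Analysis.Matrix.PosDef
import Vale.Agent.Lib.P219.Co.Defs
import Vale.Agent.Lib.P219.MetricDefs

/-!
# P219: from coordinates to bilinear maps, part A: metric and connection
-/

open scoped ContDiff ENNReal
open MeasureTheory

namespace Vale.Agent.Lib.P219.Co

noncomputable section

variable {n : ℕ}

/-- the bilinear form of a matrix -/
def bil (A : Matrix (Fin n) (Fin n) ℝ) : E n →L[ℝ] E n →L[ℝ] ℝ :=
  ∑ i, ∑ j, A i j • ((EuclideanSpace.proj (𝕜 := ℝ) i : E n →L[ℝ] ℝ).smulRight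
    (EuclideanSpace.proj (𝕜 := ℝ) j : E n →L[ℝ] ℝ))

theorem bil_apply (A : Matrix (Fin n) (Fin n) ℝ) (v w : E n) :
    bil A v w = ∑ i, ∑ j, A i j * v i * w j := by
  unfold bil
  rw [sum_apply, sum_apply]
  refine Finset.sum_congr rfl fun i _ => ?_
  rw [sum_apply, sum_apply]
  refine Finset.sum_congr rfl fun j _ => ?_
  show A i j * (v i * w j) = A i j * v i * w j
  ring

/-- the bilinear map `(v, w) ↦ Σ_k (Σ_ij Γ^k_ij v_i w_j) e_k` -/
def bilv (C : Fin n → Fin n → Fin n → ℝ) : E n →L[ℝ] E n →L[ℝ] E n :=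
  ∑ k, ∑ i, ∑ j, C k i j • ((EuclideanSpace.proj (𝕜 := ℝ) i : E n →L[ℝ] ℝ).smulRight
    ((EuclideanSpace.proj (𝕜 := ℝ) j : E n →L[ℝ] ℝ).smulRight
      (EuclideanSpace.single k (1 : ℝ) : E n)))

theorem bilv_apply (C : Fin n → Fin n → Fin n → ℝ) (v w : E n) (k : Fin n) :
    bilv C v w k = ∑ i, ∑ j, C k i j * v i * w j := by
  have h : bilv C v w = ∑ k, ∑ i, ∑ j, (C k i j * v i * w j) • (EuclideanSpace.single k (1 : ℝ) :
      E n) := by
    unfold bilv
    rw [sum_apply, sum_apply]
    refine Finset.sum_congr rfl fun k _ => ?_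
    rw [sum_apply, sum_apply]
    refine Finset.sum_congr rfl fun i _ => ?_
    rw [sum_apply, sum_apply]
    refine Finset.sum_congr rfl fun j _ => ?_
    show C k i j • (v i • (w j • (EuclideanSpace.single k (1 : ℝ) : E n))) = _
    rw [smul_smul, smul_smul, mul_assoc]
  rw [h]
  simp only [← Finset.sum_smul]
  rw [WithLp.ofLp_sum, Finset.sum_apply, Finset.sum_eq_single k]
  · simp
  · intro b _ hb
    simp [hb.symm]
  · intro hk
    exact absurd (Finset.mem_univ k) hk

/-- the metric as a field of bilinear maps -/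
def toG (g : E n → Matrix (Fin n) (Fin n) ℝ) : Ev n → (Ev n →L[ℝ] Ev n →L[ℝ] ℝ) :=
  fun x => bil (g x)

/-- the connection as a field of bilinear maps -/
def toΓ (g : E n → Matrix (Fin n) (Fin n) ℝ) : Ev n → (Ev n →L[ℝ] Ev n →L[ℝ] Ev n) :=
  fun x => bilv (fun k i j => christoffel g k i j x)

theorem det_pos {g : E n → Matrix (Fin n) (Fin n) ℝ} (hg : IsMetric g) (x : E n) :
    0 < (g x).det := by
  have h : (g x).PosDef := by
    refine Matrix.PosDef.of_dotProduct_mulVec_pos ?_ ?_
    · ext i j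
      simp only [Matrix.conjTranspose_apply, star_trivial]
      exact hg.symm x _ _
    · intro v hv
      rw [star_trivial]
      have h1 : v ⬝ᵥ (g x).mulVec v = ∑ i, ∑ j, g x i j * v i * v j := by
        simp only [dotProduct, Matrix.mulVec, Finset.mul_sum]
        refine Finset.sum_congr rfl fun i _ => Finset.sum_congr rfl fun j _ => ?_
        ring
      rw [h1]
      exact hg.pos x v hv
  exact h.det_pos

theorem conv_det_smooth {M : E n → Matrix (Fin n) (Fin n) ℝ}
    (h : ∀ i j, ContDiff ℝ ∞ (fun x => M x i j)) : ContDiff ℝ ∞ (fun x => (M x).det) := by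
  have h1 : (fun x => (M x).det) = fun x => ∑ σ : Equiv.Perm (Fin n),
      ((Equiv.Perm.sign σ : ℤ) : ℝ) * ∏ i, M x (σ i) i := by
    funext x
    rw [Matrix.det_apply']
  rw [h1]
  exact ContDiff.sum fun σ _ => contDiff_const.mul (contDiff_prod fun i _ => h _ _)

/-- coefficient forms -/
def conv_c (i j : Fin n) : E n →L[ℝ] E n →L[ℝ] ℝ :=
  (EuclideanSpace.proj (𝕜 := ℝ) i : E n →L[ℝ] ℝ).smulRight
    (EuclideanSpace.proj (𝕜 := ℝ) j : E n →L[ℝ] ℝ)

/-- coefficient forms -/
def conv_cv (k i j : Fin n) : E n →L[ℝ] E n →L[ℝ] E n :=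
  (EuclideanSpace.proj (𝕜 := ℝ) i : E n →L[ℝ] ℝ).smulRight
    ((EuclideanSpace.proj (𝕜 := ℝ) j : E n →L[ℝ] ℝ).smulRight
      (EuclideanSpace.single k (1 : ℝ) : E n))

theorem conv_smooth2 {F : Type} [NormedAddCommGroup F] [NormedSpace ℝ F]
    (f : Fin n → Fin n → E n → ℝ) (c : Fin n → Fin n → F) (h : ∀ i j, ContDiff ℝ ∞ (f i j)) :
    ContDiff ℝ ∞ (fun x => ∑ i, ∑ j, f i j x • c i j) :=
  ContDiff.sum fun i _ => ContDiff.sum fun j _ => (h i j).smul contDiff_const

theorem conv_hasFDeriv2 {F : Type} [NormedAddCommGroup F] [NormedSpace ℝ F]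
    (f : Fin n → Fin n → E n → ℝ) (c : Fin n → Fin n → F) (h : ∀ i j, Differentiable ℝ (f i j))
    (x : E n) : HasFDerivAt (fun x => ∑ i, ∑ j, f i j x • c i j)
      (∑ i, ∑ j, (fderiv ℝ (f i j) x).smulRight (c i j)) x := by
  refine HasFDerivAt.fun_sum fun i _ => HasFDerivAt.fun_sum fun j _ => ?_
  exact ((h i j) x).hasFDerivAt.smul_const _

theorem conv_fderiv2 {F : Type} [NormedAddCommGroup F] [NormedSpace ℝ F]
    (f : Fin n → Fin n → E n → ℝ) (c : Fin n → Fin n → F) (h : ∀ i j, Differentiable ℝ (f i j))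
    (x u : E n) : fderiv ℝ (fun x => ∑ i, ∑ j, f i j x • c i j) x u
      = ∑ i, ∑ j, fderiv ℝ (f i j) x u • c i j := by
  rw [(conv_hasFDeriv2 f c h x).fderiv, sum_apply]
  refine Finset.sum_congr rfl fun i _ => ?_
  rw [sum_apply]
  rfl

theorem conv_fderiv3 {F : Type} [NormedAddCommGroup F] [NormedSpace ℝ F]
    (f : Fin n → Fin n → Fin n → E n → ℝ) (c : Fin n → Fin n → Fin n → F)
    (h : ∀ k i j, Differentiable ℝ (f k i j)) (x u : E n) :
    fderiv ℝ (fun x => ∑ k, ∑ i, ∑ j, f k i j x • c k i j) x u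
      = ∑ k, ∑ i, ∑ j, fderiv ℝ (f k i j) x u • c k i j := by
  have h1 : HasFDerivAt (fun x => ∑ k, ∑ i, ∑ j, f k i j x • c k i j)
      (∑ k, ∑ i, ∑ j, (fderiv ℝ (f k i j) x).smulRight (c k i j)) x :=
    HasFDerivAt.fun_sum fun k _ => conv_hasFDeriv2 (f k) (c k) (h k) x
  rw [h1.fderiv, sum_apply]
  refine Finset.sum_congr rfl fun k _ => ?_
  rw [sum_apply]
  refine Finset.sum_congr rfl fun i _ => ?_
  rw [sum_apply]
  rfl

theorem conv_pd_smooth {f : E n → ℝ} (h : ContDiff ℝ ∞ f) (i : Fin n) :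
    ContDiff ℝ ∞ (pd i f) :=
  (h.fderiv_right (m := ∞) (by simp)).clm_apply contDiff_const

theorem conv_fd_apply (f : E n → ℝ) (x u : E n) :
    fderiv ℝ f x u = ∑ m, pd m f x * u m := by
  have h : u = ∑ m, u m • (EuclideanSpace.single m (1 : ℝ) : E n) := by
    ext k
    rw [WithLp.ofLp_sum, Finset.sum_apply, Finset.sum_eq_single k]
    · simp
    · intro b _ hb
      simp [hb.symm]
    · intro hk
      exact absurd (Finset.mem_univ k) hk
  conv_lhs => rw [h, map_sum]
  refine Finset.sum_congr rfl fun m _ => ?_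
  rw [map_smul, smul_eq_mul, mul_comm]
  rfl

theorem conv_sum3 (F : Fin n → Fin n → Fin n → ℝ) :
    ∑ i, ∑ j, ∑ m, F i j m = ∑ m, ∑ i, ∑ j, F i j m := by
  calc ∑ i, ∑ j, ∑ m, F i j m = ∑ i, ∑ m, ∑ j, F i j m :=
        Finset.sum_congr rfl fun i _ => Finset.sum_comm
    _ = ∑ m, ∑ i, ∑ j, F i j m := Finset.sum_comm

theorem conv_perm1 (F : Fin n → Fin n → Fin n → Fin n → ℝ) :
    ∑ i, ∑ j, ∑ a, ∑ b, F i j a b = ∑ a, ∑ b, ∑ j, ∑ i, F i j a b := by
  rw [conv_sum3 (fun i j a => ∑ b, F i j a b)]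
  refine Finset.sum_congr rfl fun a _ => ?_
  rw [conv_sum3 (fun i j b => F i j a b)]
  exact Finset.sum_congr rfl fun b _ => Finset.sum_comm

theorem conv_perm2 (F : Fin n → Fin n → Fin n → Fin n → ℝ) :
    ∑ i, ∑ j, ∑ a, ∑ b, F i j a b = ∑ a, ∑ i, ∑ b, ∑ j, F i j a b := by
  rw [conv_sum3 (fun i j a => ∑ b, F i j a b)]
  exact Finset.sum_congr rfl fun a _ => Finset.sum_congr rfl fun i _ => Finset.sum_comm

theorem conv_christoffel_symm {g : E n → Matrix (Fin n) (Fin n) ℝ} (hg : IsMetric g)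
    (k i j : Fin n) (x : E n) : christoffel g k i j x = christoffel g k j i x := by
  unfold christoffel
  congr 1
  refine Finset.sum_congr rfl fun l _ => ?_
  have h : (fun y => g y i j) = fun y => g y j i := funext fun y => hg.symm y i j
  rw [h]
  ring

theorem inv_smooth {g : E n → Matrix (Fin n) (Fin n) ℝ} (hg : IsMetric g) (i j : Fin n) :
    ContDiff ℝ ∞ (fun x => (g x)⁻¹ i j) := by
  have h : (fun x => (g x)⁻¹ i j) = fun x => ((g x).det)⁻¹ *
      ((g x).updateRow j (Pi.single i 1)).det := by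
    funext x
    rw [Matrix.inv_def, Matrix.smul_apply, Matrix.adjugate_apply, Ring.inverse_eq_inv', smul_eq_mul]
  rw [h]
  refine ((conv_det_smooth hg.smooth).inv fun x => (det_pos hg x).ne').mul (conv_det_smooth ?_)
  intro a b
  by_cases ha : a = j
  · subst ha
    simp only [Matrix.updateRow_self]
    exact contDiff_const
  · simp only [Matrix.updateRow_ne ha]
    exact hg.smooth a b

theorem christoffel_smooth {g : E n → Matrix (Fin n) (Fin n) ℝ} (hg : IsMetric g)
    (k i j : Fin n) : ContDiff ℝ ∞ (christoffel g k i j) := by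
  unfold christoffel
  refine contDiff_const.mul (ContDiff.sum fun l _ => (inv_smooth hg k l).mul ?_)
  exact ((conv_pd_smooth (hg.smooth j l) i).add (conv_pd_smooth (hg.smooth i l) j)).sub
    (conv_pd_smooth (hg.smooth i j) l)

theorem isMetric_toG {g : E n → Matrix (Fin n) (Fin n) ℝ} (hg : IsMetric g) :
    Lib.P219.IsMetric (toG g) := by
  refine ⟨?_, ?_, ?_⟩
  · exact conv_smooth2 (fun i j y => g y i j) conv_c hg.smooth
  · intro x v w
    show bil (g x) v w = bil (g x) w v
    rw [bil_apply, bil_apply, Finset.sum_comm]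
    refine Finset.sum_congr rfl fun i _ => Finset.sum_congr rfl fun j _ => ?_
    rw [hg.symm x j i]
    ring
  · intro x v hv
    show 0 < bil (g x) v v
    rw [bil_apply]
    refine hg.pos x (fun i => v i) fun h => hv ?_
    ext i
    exact congrFun h i

theorem fderiv_toG {g : E n → Matrix (Fin n) (Fin n) ℝ} (hg : IsMetric g) (x u v w : E n) :
    fderiv ℝ (toG g) x u v w = ∑ m, ∑ i, ∑ j, pd m (fun y => g y i j) x * u m * v i * w j := by
  have h0 : ∀ A : Matrix (Fin n) (Fin n) ℝ, bil A = ∑ i, ∑ j, A i j • conv_c i j := fun A => rfl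
  have h1 : toG g = fun x => ∑ i, ∑ j, g x i j • conv_c i j := funext fun y => h0 (g y)
  have h2 : fderiv ℝ (toG g) x u
      = bil (Matrix.of fun i j => fderiv ℝ (fun y => g y i j) x u) := by
    rw [h0, h1]
    exact conv_fderiv2 (fun i j y => g y i j) conv_c
      (fun i j => (hg.smooth i j).differentiable (by simp)) x u
  rw [h2, bil_apply]
  simp only [Matrix.of_apply, conv_fd_apply, Finset.sum_mul]
  rw [conv_sum3]

theorem fderiv_toΓ {g : E n → Matrix (Fin n) (Fin n) ℝ} (hg : IsMetric g) (x u v w : E n)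
    (k : Fin n) :
    fderiv ℝ (toΓ g) x u v w k
      = ∑ m, ∑ i, ∑ j, pd m (christoffel g k i j) x * u m * v i * w j := by
  have h0 : ∀ C : Fin n → Fin n → Fin n → ℝ, bilv C = ∑ k, ∑ i, ∑ j, C k i j • conv_cv k i j :=
    fun C => rfl
  have h1 : toΓ g = fun x => ∑ k, ∑ i, ∑ j, christoffel g k i j x • conv_cv k i j :=
    funext fun y => h0 (fun k i j => christoffel g k i j y)
  have h2 : fderiv ℝ (toΓ g) x u = bilv (fun k i j => fderiv ℝ (christoffel g k i j) x u) := by
    rw [h0, h1]
    exact conv_fderiv3 (fun k i j => christoffel g k i j) conv_cv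
      (fun k i j => (christoffel_smooth hg k i j).differentiable (by simp)) x u
  rw [h2, bilv_apply]
  simp only [conv_fd_apply, Finset.sum_mul]
  rw [conv_sum3]

theorem isLeviCivita_toΓ {g : E n → Matrix (Fin n) (Fin n) ℝ} (hg : IsMetric g) :
    Lib.P219.IsLeviCivita (toG g) (toΓ g) := by
  refine ⟨?_, ?_⟩
  · intro x v w
    ext k
    show bilv _ v w k = bilv _ w v k
    rw [bilv_apply, bilv_apply, Finset.sum_comm]
    refine Finset.sum_congr rfl fun i _ => Finset.sum_congr rfl fun j _ => ?_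
    rw [conv_christoffel_symm hg k j i]
    ring
  · intro x z v w
    rw [fderiv_toG hg]
    show _ = bil (g x) (toΓ g x z v) w + bil (g x) v (toΓ g x z w)
    rw [bil_apply, bil_apply]
    have h1 : ∀ a b : E n, ∀ k, toΓ g x a b k = ∑ i, ∑ j, christoffel g k i j x * a i * b j :=
      fun a b k => bilv_apply _ a b k
    simp only [h1]
    have hlow : ∀ a i j, ∑ k, g x a k * christoffel g k i j x
        = (1 / 2) * (pd i (fun y => g y j a) x + pd j (fun y => g y i a) x
          - pd a (fun y => g y i j) x) := by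
      intro a i j
      unfold christoffel
      have h2 : ∀ k, g x a k * ((1 / 2) * ∑ l, (g x)⁻¹ k l * (pd i (fun y => g y j l) x
          + pd j (fun y => g y i l) x - pd l (fun y => g y i j) x))
          = ∑ l, (g x a k * (g x)⁻¹ k l) * ((1 / 2) * (pd i (fun y => g y j l) x
          + pd j (fun y => g y i l) x - pd l (fun y => g y i j) x)) := by
        intro k
        rw [Finset.mul_sum, Finset.mul_sum]
        refine Finset.sum_congr rfl fun l _ => ?_
        ring
      rw [Finset.sum_congr rfl fun k _ => h2 k, Finset.sum_comm]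
      have hu : IsUnit (g x).det := isUnit_iff_ne_zero.2 (det_pos hg x).ne'
      have h3 : ∀ l, ∑ k, g x a k * (g x)⁻¹ k l = if a = l then 1 else 0 := by
        intro l
        rw [← Matrix.mul_apply, Matrix.mul_nonsing_inv _ hu, Matrix.one_apply]
      have h4 : ∀ l, ∑ k, (g x a k * (g x)⁻¹ k l) * ((1 / 2) * (pd i (fun y => g y j l) x
          + pd j (fun y => g y i l) x - pd l (fun y => g y i j) x))
          = (if a = l then 1 else 0) * ((1 / 2) * (pd i (fun y => g y j l) x
          + pd j (fun y => g y i l) x - pd l (fun y => g y i j) x)) := by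
        intro l
        rw [← Finset.sum_mul, h3]
      rw [Finset.sum_congr rfl fun l _ => h4 l]
      simp only [ite_mul, one_mul, zero_mul]
      rw [Finset.sum_ite_eq]
      simp
    have e1 : ∑ i, ∑ j, g x i j * (∑ i', ∑ j', christoffel g i i' j' x * z i' * v j') * w j
        = ∑ m, ∑ i, ∑ j, (∑ k, g x j k * christoffel g k m i x) * z m * v i * w j := by
      have h2 := conv_perm1 (fun i j a b => g x i j * (christoffel g i a b x * z a * v b) * w j)
      simp only [Finset.mul_sum, Finset.sum_mul]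
      refine h2.trans ?_
      refine Finset.sum_congr rfl fun m _ => Finset.sum_congr rfl fun i _ =>
        Finset.sum_congr rfl fun j _ => Finset.sum_congr rfl fun k _ => ?_
      rw [hg.symm x k j]
      ring
    have e2 : ∑ i, ∑ j, g x i j * v i * (∑ i', ∑ j', christoffel g j i' j' x * z i' * w j')
        = ∑ m, ∑ i, ∑ j, (∑ k, g x i k * christoffel g k m j x) * z m * v i * w j := by
      have h2 := conv_perm2 (fun i j a b => g x i j * v i * (christoffel g j a b x * z a * w b))
      simp only [Finset.mul_sum, Finset.sum_mul]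
      refine h2.trans ?_
      refine Finset.sum_congr rfl fun m _ => Finset.sum_congr rfl fun i _ =>
        Finset.sum_congr rfl fun j _ => Finset.sum_congr rfl fun k _ => ?_
      ring
    rw [e1, e2]
    simp only [hlow, ← Finset.sum_add_distrib]
    refine Finset.sum_congr rfl fun m _ => Finset.sum_congr rfl fun i _ =>
      Finset.sum_congr rfl fun j _ => ?_
    have s1 : (fun y => g y m j) = fun y => g y j m := funext fun y => hg.symm y m j
    have s2 : (fun y => g y m i) = fun y => g y i m := funext fun y => hg.symm y m i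
    have s3 : (fun y => g y j i) = fun y => g y i j := funext fun y => hg.symm y j i
    rw [s1, s2, s3]
    ring

end

end Vale.Agent.Lib.P219.Co
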