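import Vale.Agent.Lib.P219.Co.ConvA

/-!
# P219: from coordinates to bilinear maps, part B: curvature and geodesics
-/

open scoped ContDiff ENNReal
open MeasureTheory

namespace Vale.Agent.Lib.P219.Co

noncomputable section

variable {n : ℕ}

private theorem sum_rot (F : Fin n → Fin n → Fin n → ℝ) :
    ∑ a, ∑ b, ∑ c, F a b c = ∑ k, ∑ i, ∑ j, F i j k := by
  have h1 : ∑ k, ∑ i, ∑ j, F i j k = ∑ i, ∑ k, ∑ j, F i j k := Finset.sum_comm
  rw [h1]
  refine Finset.sum_congr rfl fun i _ => ?_
  exact Finset.sum_comm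

private theorem sum_rev (F : Fin n → Fin n → Fin n → ℝ) :
    ∑ a, ∑ b, ∑ c, F a b c = ∑ k, ∑ i, ∑ j, F j i k := by
  rw [sum_rot F]
  refine Finset.sum_congr rfl fun k _ => ?_
  exact Finset.sum_comm

private theorem toΓ_toΓ (g : E n → Matrix (Fin n) (Fin n) ℝ) (x u v w : E n) (l : Fin n) :
    toΓ g x u (toΓ g x v w) l
      = ∑ k, ∑ i, ∑ j, (∑ m, christoffel g l i m x * christoffel g m j k x) * u i * v j * w k := by
  unfold toΓ
  rw [bilv_apply]
  have h1 : ∀ i, ∑ m, christoffel g l i m x * u i
        * (bilv (fun k i j => christoffel g k i j x) v w) m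
      = ∑ j, ∑ k, (∑ m, christoffel g l i m x * christoffel g m j k x) * u i * v j * w k := by
    intro i
    have h2 : ∀ m, christoffel g l i m x * u i
        * (bilv (fun k i j => christoffel g k i j x) v w) m
        = ∑ j, ∑ k, christoffel g l i m x * christoffel g m j k x * u i * v j * w k := by
      intro m
      rw [bilv_apply, Finset.mul_sum]
      refine Finset.sum_congr rfl fun j _ => ?_
      rw [Finset.mul_sum]
      refine Finset.sum_congr rfl fun k _ => ?_
      ring
    rw [Finset.sum_congr rfl fun m _ => h2 m, Finset.sum_comm]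
    refine Finset.sum_congr rfl fun j _ => ?_
    rw [Finset.sum_comm]
    refine Finset.sum_congr rfl fun k _ => ?_
    rw [Finset.sum_mul, Finset.sum_mul, Finset.sum_mul]
  rw [Finset.sum_congr rfl fun i _ => h1 i]
  exact sum_rot _

theorem curv_toΓ {g : E n → Matrix (Fin n) (Fin n) ℝ} (hg : IsMetric g) (x u v w : E n)
    (l : Fin n) :
    curv (toΓ g) x u v w l = curvature g x u.ofLp v.ofLp w.ofLp l := by
  have h0 : curv (toΓ g) x u v w l = fderiv ℝ (toΓ g) x u v w l - fderiv ℝ (toΓ g) x v u w l
      + toΓ g x u (toΓ g x v w) l - toΓ g x v (toΓ g x u w) l := by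
    simp only [curv, PiLp.add_apply, PiLp.sub_apply]
  have h1 : fderiv ℝ (toΓ g) x u v w l
      = ∑ k, ∑ i, ∑ j, pd i (christoffel g l j k) x * u i * v j * w k := by
    rw [fderiv_toΓ hg]
    exact sum_rot _
  have h2 : fderiv ℝ (toΓ g) x v u w l
      = ∑ k, ∑ i, ∑ j, pd j (christoffel g l i k) x * v j * u i * w k := by
    rw [fderiv_toΓ hg]
    exact sum_rev _
  have h4 : toΓ g x v (toΓ g x u w) l
      = ∑ k, ∑ i, ∑ j, (∑ m, christoffel g l j m x * christoffel g m i k x)
        * v j * u i * w k := by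
    rw [toΓ_toΓ]
    refine Finset.sum_congr rfl fun k _ => ?_
    exact Finset.sum_comm
  rw [h0, h1, h2, toΓ_toΓ, h4]
  unfold curvature riemann
  rw [← Finset.sum_sub_distrib, ← Finset.sum_add_distrib, ← Finset.sum_sub_distrib]
  refine Finset.sum_congr rfl fun k _ => ?_
  rw [← Finset.sum_sub_distrib, ← Finset.sum_add_distrib, ← Finset.sum_sub_distrib]
  refine Finset.sum_congr rfl fun i _ => ?_
  rw [← Finset.sum_sub_distrib, ← Finset.sum_add_distrib, ← Finset.sum_sub_distrib]
  refine Finset.sum_congr rfl fun j _ => ?_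
  rw [Finset.sum_sub_distrib]
  ring

private theorem toG_ip (g : E n → Matrix (Fin n) (Fin n) ℝ) (x v w : E n) :
    toG g x v w = ip g x v.ofLp w.ofLp := bil_apply _ _ _

private theorem ip_pos {g : E n → Matrix (Fin n) (Fin n) ℝ} (hg : IsMetric g) (x : E n)
    (v : Fin n → ℝ) (hv : v ≠ 0) : 0 < ip g x v v := hg.pos x v hv

private theorem ip_symm {g : E n → Matrix (Fin n) (Fin n) ℝ} (hg : IsMetric g) (x : E n)
    (v w : Fin n → ℝ) : ip g x v w = ip g x w v := by
  unfold ip
  rw [Finset.sum_comm]
  refine Finset.sum_congr rfl fun j _ => Finset.sum_congr rfl fun i _ => ?_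
  rw [hg.symm x i j]
  ring

private theorem ip_expand (g : E n → Matrix (Fin n) (Fin n) ℝ) (x : E n)
    (u v : Fin n → ℝ) (a : ℝ) :
    ip g x (fun i => u i - a * v i) (fun i => u i - a * v i)
      = ip g x u u - a * ip g x u v - a * ip g x v u + a ^ 2 * ip g x v v := by
  unfold ip
  rw [Finset.mul_sum, Finset.mul_sum, Finset.mul_sum, ← Finset.sum_sub_distrib,
    ← Finset.sum_sub_distrib, ← Finset.sum_add_distrib]
  refine Finset.sum_congr rfl fun i _ => ?_
  rw [Finset.mul_sum, Finset.mul_sum, Finset.mul_sum, ← Finset.sum_sub_distrib,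
    ← Finset.sum_sub_distrib, ← Finset.sum_add_distrib]
  refine Finset.sum_congr rfl fun j _ => ?_
  ring

private theorem gram_pos {g : E n → Matrix (Fin n) (Fin n) ℝ} (hg : IsMetric g) (x : E n)
    (u v : Fin n → ℝ) (h : LinearIndependent ℝ ![u, v]) :
    0 < ip g x u u * ip g x v v - ip g x u v ^ 2 := by
  rw [LinearIndependent.pair_iff] at h
  have hv : v ≠ 0 := by
    intro hv
    have := (h 0 1 (by rw [hv]; simp)).2
    exact one_ne_zero this
  have hvv := ip_pos hg x v hv
  have hw : (fun i => u i - ip g x u v / ip g x v v * v i) ≠ 0 := by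
    intro hw
    have h1 : (1 : ℝ) • u + (-(ip g x u v / ip g x v v)) • v = 0 := by
      rw [← hw]
      funext i
      simp only [Pi.add_apply, Pi.smul_apply, smul_eq_mul]
      ring
    exact one_ne_zero (h _ _ h1).1
  have hww := ip_pos hg x _ hw
  rw [ip_expand, ip_symm hg x v u] at hww
  have h3 : ip g x u u - ip g x u v / ip g x v v * ip g x u v
      - ip g x u v / ip g x v v * ip g x u v + (ip g x u v / ip g x v v) ^ 2 * ip g x v v
      = (ip g x u u * ip g x v v - ip g x u v ^ 2) / ip g x v v := by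
    field_simp
    ring
  rw [h3] at hww
  have := mul_pos hww hvv
  rwa [div_mul_cancel₀ _ hvv.ne'] at this

theorem sec_toG {g : E n → Matrix (Fin n) (Fin n) ℝ} (hg : IsCartanHadamard g) (x u v : E n) :
    toG g x (curv (toΓ g) x u v v) u ≤ 0 := by
  by_cases h : LinearIndependent ℝ ![u.ofLp, v.ofLp]
  · have hs := hg.nonpos x u.ofLp v.ofLp h
    have hD := gram_pos hg.metric x u.ofLp v.ofLp h
    unfold sectional at hs
    have h1 := mul_nonpos_of_nonpos_of_nonneg hs hD.le
    rw [div_mul_cancel₀ _ hD.ne'] at h1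
    rw [toG_ip]
    have h2 : (curv (toΓ g) x u v v).ofLp = curvature g x u.ofLp v.ofLp v.ofLp := by
      funext l
      exact curv_toΓ hg.metric x u v v l
    rw [h2]
    exact h1
  · rw [LinearIndependent.pair_iff] at h
    push Not at h
    obtain ⟨s, t, hst, hne⟩ := h
    have hst' : s • u + t • v = 0 := by
      ext i
      have := congrFun hst i
      simpa using this
    have hz : curv (toΓ g) x u v v = 0 := by
      by_cases ht : t = 0
      · have hs : s ≠ 0 := fun hs => hne hs ht
        have hu : u = 0 := by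
          rw [ht, zero_smul, add_zero] at hst'
          exact (smul_eq_zero.mp hst').resolve_left hs
        rw [hu]
        unfold curv
        simp
      · have hv : v = (-(s / t)) • u := by
          have h1 : t • v = -(s • u) := by
            rw [add_comm] at hst'
            exact eq_neg_of_add_eq_zero_left hst'
          have h2 : v = t⁻¹ • (t • v) := by rw [smul_smul, inv_mul_cancel₀ ht, one_smul]
          rw [h2, h1, smul_neg, smul_smul, neg_smul]
          congr 2
          rw [div_eq_inv_mul]
        rw [hv]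
        unfold curv
        simp only [map_smul, ContinuousLinearMap.smul_apply]
        abel
    rw [hz]
    simp

theorem isCH_of_coord {g : E n → Matrix (Fin n) (Fin n) ℝ} (hg : IsCartanHadamard g) :
    IsCH (toG g) (toΓ g) := by
  refine ⟨isMetric_toG hg.metric, isLeviCivita_toΓ hg.metric, ?_, sec_toG hg⟩
  intro x v
  obtain ⟨c, w, hc, h0, h1⟩ := hg.complete x v
  have key : ∀ (f f' : ℝ → E n), (∀ t k, HasDerivAt (fun s => f s k) (f' t k) t) →
      ∀ t, HasDerivAt f (f' t) t := by
    intro f f' hf t
    have h2 : HasDerivAt (fun s => (f s).ofLp) ((f' t).ofLp) t :=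
      hasDerivAt_pi.2 fun k => hf t k
    have h3 := (PiLp.continuousLinearEquiv 2 ℝ (fun _ : Fin n => ℝ)).symm.hasFDerivAt
      (x := (f t).ofLp)
    have h4 := h3.comp_hasDerivAt t h2
    exact h4
  have hd : ∀ t, HasDerivAt c (w t) t := key c w hc.velocity
  have hder : deriv c = w := by
    funext t
    exact (hd t).deriv
  refine ⟨c, ⟨fun t => (hd t).differentiableAt, ?_⟩, h0, ?_⟩
  · rw [hder]
    apply key w (fun t => -(toΓ g (c t)) (w t) (w t))
    intro t k
    have h5 := hc.equation t k
    have h6 : (-(toΓ g (c t)) (w t) (w t)) k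
        = -∑ i, ∑ j, christoffel g k i j (c t) * w t i * w t j := by
      rw [← bilv_apply (fun k i j => christoffel g k i j (c t)) (w t) (w t) k]
      rfl
    rw [h6]
    exact h5
  · rw [hder]
    exact h1

end

end Vale.Agent.Lib.P219.Co
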