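import Mathlib.Algebra.Order.Archimedean.Real.Hom
import Vale.Agent.Lib.P219.Co.ConvA
import Vale.Agent.Lib.P219.Bd.PerArea

/-!
# P219: from coordinates to bilinear maps, part C: volume, perimeter, area
-/

open scoped ContDiff ENNReal
open MeasureTheory

namespace Vale.Agent.Lib.P219.Co

noncomputable section

variable {n : ℕ}

theorem gram_toG (g : E n → Matrix (Fin n) (Fin n) ℝ) (x : E n) :
    Lib.P219.gram (toG g) x = g x := by
  ext i j
  unfold Lib.P219.gram toG
  rw [bil_apply]
  simp [Finset.sum_ite_eq', Finset.mem_univ]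

private theorem sqdet_toG (g : E n → Matrix (Fin n) (Fin n) ℝ) (x : E n) :
    sqdet (toG g) x = density g x := by
  unfold sqdet density
  rw [gram_toG]

theorem gvol_toG (g : E n → Matrix (Fin n) (Fin n) ℝ) : gvol (toG g) = vol g := by
  unfold gvol vol
  congr 1
  funext x
  rw [sqdet_toG]

private theorem gdiv_toG (g : E n → Matrix (Fin n) (Fin n) ℝ) (X : E n → E n) (x : E n) :
    gdiv (toG g) X x = divergence g X x := by
  unfold gdiv divergence pd
  rw [sqdet_toG]
  congr 1
  apply Finset.sum_congr rfl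
  intro i _
  have h : (fun y => sqdet (toG g) y * X y i) = fun y => density g y * X y i := by
    funext y
    rw [sqdet_toG]
  rw [h]

theorem per_toG (g : E n → Matrix (Fin n) (Fin n) ℝ) (Ω : Set (E n)) :
    per (toG g) Ω = perimeter g Ω := by
  unfold per perimeter
  refine iSup_congr (fun X => ?_)
  have hiff : (ContDiff ℝ 1 X ∧ HasCompactSupport X ∧ ∀ x, toG g x (X x) (X x) ≤ 1) ↔
      IsTestField g X := by
    constructor
    · rintro ⟨h1, h2, h3⟩
      refine ⟨h1, h2, fun x => ?_⟩
      have := h3 x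
      unfold toG at this
      rwa [bil_apply] at this
    · rintro ⟨h1, h2, h3⟩
      refine ⟨h1, h2, fun x => ?_⟩
      unfold toG
      rw [bil_apply]
      exact h3 x
  refine iSup_congr_Prop hiff (fun _ => ?_)
  rw [gvol_toG]
  congr 1
  apply integral_congr_ae
  exact Filter.Eventually.of_forall (fun x => gdiv_toG g X x)

theorem isDefiningFunction_iff (ρ : E n → ℝ) (hρ : IsDefiningFunction ρ) :
    P219G.IsDefiningFunction ρ := by
  refine ⟨hρ.smooth, hρ.bounded, fun x hx h0 => ?_⟩
  obtain ⟨i, hi⟩ := hρ.regular x hx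
  apply hi
  unfold pd
  rw [h0]
  rfl

private theorem gradient_apply {ρ : E n → ℝ} (hρ : ContDiff ℝ ∞ ρ) (x : E n) (i : Fin n) :
    gradient ρ x i = pd i ρ x := by
  have h1 : HasGradientAt ρ (gradient ρ x) x :=
    (hρ.differentiable (by simp) x).hasGradientAt
  have h2 := h1.hasFDerivAt.fderiv
  unfold pd
  rw [h2, InnerProductSpace.toDual_apply_apply, EuclideanSpace.inner_single_right]
  simp

private theorem norm_gradient {ρ : E n → ℝ} (hρ : ContDiff ℝ ∞ ρ) (x : E n) :
    ‖gradient ρ x‖ = Real.sqrt (∑ i, pd i ρ x ^ 2) := by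
  rw [EuclideanSpace.norm_eq]
  congr 1
  apply Finset.sum_congr rfl
  intro i _
  rw [gradient_apply hρ, Real.norm_eq_abs, sq_abs]

theorem area_toG {g : E n → Matrix (Fin n) (Fin n) ℝ} (hg : IsMetric g) {ρ : E n → ℝ}
    (hρ : IsDefiningFunction ρ) : P219G.area (toG g) ρ = area g ρ := by
  have _ := hg
  unfold P219G.area area
  refine lintegral_congr (fun x => ?_)
  congr 1
  have hv : P219G.volDens (toG g) x = density g x := sqdet_toG g x
  have hgram : P219G.gram (toG g) x = g x := gram_toG g x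
  rw [hv, mul_div_assoc]
  congr 1
  unfold P219G.coNorm P219G.unitNormal
  rw [hgram, norm_gradient hρ.smooth]
  set t : ℝ := Real.sqrt (∑ i, pd i ρ x ^ 2) with ht
  have ht0 : 0 ≤ t := Real.sqrt_nonneg _
  have hq : (t⁻¹ • gradient ρ x).ofLp ⬝ᵥ ((g x)⁻¹).mulVec (t⁻¹ • gradient ρ x).ofLp
      = (t⁻¹) ^ 2 * ∑ i, ∑ j, (g x)⁻¹ i j * pd i ρ x * pd j ρ x := by
    simp only [WithLp.ofLp_smul, Matrix.mulVec_smul, smul_dotProduct, dotProduct_smul,
      smul_eq_mul]
    rw [← mul_assoc, sq]
    congr 1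
    simp only [dotProduct, Matrix.mulVec, Finset.mul_sum]
    apply Finset.sum_congr rfl
    intro i _
    apply Finset.sum_congr rfl
    intro j _
    rw [gradient_apply hρ.smooth, gradient_apply hρ.smooth]
    ring
  rw [hq, Real.sqrt_mul (sq_nonneg _), Real.sqrt_sq (inv_nonneg.2 ht0)]
  rw [div_eq_mul_inv, mul_comm]

end

end Vale.Agent.Lib.P219.Co
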