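import Vale.Agent.Lib.P219.Co.Defs

/-!
# P219: the generalized Cartan-Hadamard inequality, curvature `≤ κ`
-/

open scoped ContDiff ENNReal
open MeasureTheory

namespace Vale.Agent.Lib.P219.Co

noncomputable section

/-- `(ℝ^n, g)` is geodesically complete with sectional curvature `≤ κ`. -/
structure IsCompleteSecLe {n : ℕ} (κ : ℝ) (g : E n → Matrix (Fin n) (Fin n) ℝ) : Prop where
  metric : IsMetric g
  complete : ∀ p w : E n, ∃ c v : ℝ → E n, IsGeodesic g c v ∧ c 0 = p ∧ v 0 = w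
  sec_le : ∀ x (u v : Fin n → ℝ), LinearIndependent ℝ ![u, v] → sectional g x u v ≤ κ

/-- `sn_b r = sinh (b r) / b`, `b = √(-κ)`, for `κ < 0` -/
def sn (κ r : ℝ) : ℝ := Real.sinh (√(-κ) * r) / √(-κ)

/-- area of the boundary of a geodesic ball of radius `r` in the model space `M^n_κ` -/
def modelArea (n : ℕ) (κ r : ℝ) : ℝ := n * ballVolume n * sn κ r ^ (n - 1)

/-- volume of a geodesic ball of radius `r` in the model space `M^n_κ` -/
def modelVolume (n : ℕ) (κ r : ℝ) : ℝ := n * ballVolume n * ∫ t in (0 : ℝ)..r, sn κ t ^ (n - 1)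

/-- The inequality of the generalized Cartan-Hadamard conjecture in dimension `n` for curvature
`≤ κ < 0` and volumes at least `𝒱_κ(r)`: in a complete metric with curvature `≤ κ`, bounded sets
(domains) of volume `≥ 𝒱_κ(r)` have perimeter (boundary area) `≥ 𝒜_κ(r)`. For all `r ≥ 0` this says
`area ≥ ℐ_κ(vol)`. -/
def ModelInequality (n : ℕ) (κ r : ℝ) : Prop :=
  ∀ g : E n → Matrix (Fin n) (Fin n) ℝ, IsCompleteSecLe κ g →
    (∀ Ω : Set (E n), Bornology.IsBounded Ω → MeasurableSet Ω →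
      ENNReal.ofReal (modelVolume n κ r) ≤ vol g Ω →
        ENNReal.ofReal (modelArea n κ r) ≤ perimeter g Ω) ∧
    (∀ ρ : E n → ℝ, IsDefiningFunction ρ →
      ENNReal.ofReal (modelVolume n κ r) ≤ vol g {x | ρ x < 0} →
        ENNReal.ofReal (modelArea n κ r) ≤ area g ρ)

end

end Vale.Agent.Lib.P219.Co
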