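import Vale.Agent.Lib.P219.Co.DefsNeg

/-!
# P219: the equality case of the generalized Cartan-Hadamard conjecture, curvature `≤ κ < 0`
-/

open scoped ContDiff ENNReal
open MeasureTheory

namespace Vale.Agent.Lib.P219.Co

noncomputable section

/-- In the ball model of curvature `κ < 0` (metric `4 |dy|² / (1 + κ |y|²)²` on `|y| < 1 / √(-κ)`) the
geodesic ball of radius `r` about `0` is the Euclidean ball of radius `tanh (√(-κ) r / 2) / √(-κ)`. -/
def modelRadius (κ r : ℝ) : ℝ := Real.tanh (√(-κ) * r / 2) / √(-κ)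

/-- `(Ω, g)` is isometric to the geodesic ball of radius `r` of the model space `M^n_κ`, `κ < 0`:
there is a map `φ`, smooth on and bijective from the geodesic ball about `0` in the ball model onto
`Ω`, with `g_kl(φ) ∂_i φ^k ∂_j φ^l = 4 δ_ij / (1 + κ |y|²)²`. -/
def IsometricToModelBall {n : ℕ} (κ : ℝ) (g : E n → Matrix (Fin n) (Fin n) ℝ) (Ω : Set (E n))
    (r : ℝ) : Prop :=
  ∃ φ : E n → E n, ContDiffOn ℝ ∞ φ (Metric.ball 0 (modelRadius κ r)) ∧
    Set.BijOn φ (Metric.ball 0 (modelRadius κ r)) Ω ∧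
    ∀ y ∈ Metric.ball (0 : E n) (modelRadius κ r), ∀ i j,
      ∑ k, ∑ l, g (φ y) k l * pd i (fun z => φ z k) y * pd j (fun z => φ z l) y
        = if i = j then 4 / (1 + κ * ‖y‖ ^ 2) ^ 2 else 0

/-- The equality case of the generalized Cartan-Hadamard conjecture in dimension `n` for curvature
`≤ κ < 0`: a domain with smooth boundary which has the volume `𝒱_κ(r)` and the boundary area
`𝒜_κ(r)` of a geodesic ball of radius `r` of `M^n_κ` is isometric to this ball. -/
def ModelRigidity (n : ℕ) (κ r : ℝ) : Prop :=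
  ∀ g : E n → Matrix (Fin n) (Fin n) ℝ, IsCompleteSecLe κ g →
    ∀ ρ : E n → ℝ, IsDefiningFunction ρ →
      vol g {x | ρ x < 0} = ENNReal.ofReal (modelVolume n κ r) →
      area g ρ = ENNReal.ofReal (modelArea n κ r) →
        IsometricToModelBall κ g {x | ρ x < 0} r

end

end Vale.Agent.Lib.P219.Co
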