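import Vale.Agent.Lib.P219.Co.ConvB
import Vale.Agent.Lib.P219.Co.ConvC
import Vale.Agent.Lib.P219.Final

/-!
# P219: the Cartan-Hadamard inequality in coordinates, for every dimension with certificates
-/

open scoped ContDiff ENNReal
open MeasureTheory

namespace Vale.Agent.Lib.P219.Co

theorem inequality_of_hasKer {n : ℕ} (hn : 2 ≤ n) (hk : HasKer n) : CartanHadamardInequality n := by
  intro g hg
  have hCH := isCH_of_coord hg
  refine ⟨fun Ω hΩ hm => ?_, fun ρ hρ => ?_⟩
  · have h := isoperimetric_per hn hk (toG g) (toΓ g) hCH Ω hΩ hm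
    rw [per_toG, gvol_toG] at h
    exact h
  · have h := isoperimetric_area hn hk (toG g) (toΓ g) hCH ρ (isDefiningFunction_iff ρ hρ)
    rw [area_toG hg.metric hρ, gvol_toG] at h
    exact h

end Vale.Agent.Lib.P219.Co
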