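import Vale.Agent.Lib.P219.Co.ScaleA
import Vale.Agent.Lib.P219.K.Model

/-!
# P219: scaling of volume, perimeter, area and the model quantities

`density (b² g) = b^n density g`; `divergence` does not change; if `X` is a test field for `b² g` then
`b X` is one for `g`.  `area`: `√((b²)^n det g) √(b⁻² g^ij ∂_i ρ ∂_j ρ) = b^(n-1) …`.
`modelVolume`: substitution `s = b t`.  `om n = ballVolume n` by definition.
-/

open scoped ContDiff ENNReal
open MeasureTheory

namespace Vale.Agent.Lib.P219.Co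

variable {n : ℕ}

theorem density_scale (g : E n → Matrix (Fin n) (Fin n) ℝ) {b : ℝ} (hb : 0 < b) (x : E n) :
    density (scale (b ^ 2) g) x = b ^ n * density g x := by
  have h1 : (b ^ 2) ^ n = (b ^ n) ^ 2 := by ring
  unfold density scale
  rw [Matrix.det_smul, Fintype.card_fin, h1, Real.sqrt_mul (sq_nonneg _),
    Real.sqrt_sq (pow_pos hb n).le]

private theorem scaleB_vol (g : E n → Matrix (Fin n) (Fin n) ℝ) {b : ℝ} (hb : 0 < b) :
    vol (scale (b ^ 2) g) = ENNReal.ofReal (b ^ n) • vol g := by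
  unfold vol
  rw [← withDensity_smul' _ _ ENNReal.ofReal_ne_top]
  congr 1
  funext x
  rw [density_scale g hb, ENNReal.ofReal_mul (pow_pos hb n).le]
  rfl

theorem vol_scale {g : E n → Matrix (Fin n) (Fin n) ℝ} (hg : IsMetric g) {b : ℝ} (hb : 0 < b)
    (Ω : Set (E n)) : vol (scale (b ^ 2) g) Ω = ENNReal.ofReal (b ^ n) * vol g Ω := by
  rw [scaleB_vol g hb]
  rfl

private theorem scaleB_pd (i : Fin n) (c : ℝ) (f : E n → ℝ) (x : E n) :
    pd i (fun y => c * f y) x = c * pd i f x := by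
  unfold pd
  have h1 : (fun y => c * f y) = c • f := rfl
  rw [h1, fderiv_const_smul_field]
  rfl

private theorem scaleB_div (g : E n → Matrix (Fin n) (Fin n) ℝ) {b : ℝ} (hb : 0 < b)
    (X : E n → E n) (x : E n) : divergence (scale (b ^ 2) g) X x = divergence g X x := by
  have hbn : b ^ n ≠ 0 := (pow_pos hb n).ne'
  unfold divergence
  have h1 : ∀ i, pd i (fun y => density (scale (b ^ 2) g) y * X y i) x =
      b ^ n * pd i (fun y => density g y * X y i) x := by
    intro i
    rw [← scaleB_pd]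
    congr 1
    funext y
    rw [density_scale g hb, mul_assoc]
  rw [Finset.sum_congr rfl fun i _ => h1 i, ← Finset.mul_sum, density_scale g hb, mul_inv,
    mul_mul_mul_comm, inv_mul_cancel₀ hbn, one_mul]

private theorem scaleB_div_smul (g : E n → Matrix (Fin n) (Fin n) ℝ) (b : ℝ)
    (X : E n → E n) (x : E n) : divergence g (fun y => b • X y) x = b * divergence g X x := by
  unfold divergence
  have h1 : ∀ i, pd i (fun y => density g y * (b • X y) i) x =
      b * pd i (fun y => density g y * X y i) x := by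
    intro i
    rw [← scaleB_pd]
    congr 1
    funext y
    rw [PiLp.smul_apply, smul_eq_mul]
    ring
  rw [Finset.sum_congr rfl fun i _ => h1 i, ← Finset.mul_sum]
  ring

private theorem scaleB_inv (A : Matrix (Fin n) (Fin n) ℝ) {c : ℝ} (hc : c ≠ 0) (hA : A.det ≠ 0) :
    (c • A)⁻¹ = c⁻¹ • A⁻¹ := by
  refine Matrix.inv_eq_left_inv ?_
  rw [Matrix.smul_mul, Matrix.mul_smul, smul_smul, inv_mul_cancel₀ hc, one_smul,
    Matrix.nonsing_inv_mul _ (isUnit_iff_ne_zero.2 hA)]

theorem perimeter_scale (hn : 1 ≤ n) {g : E n → Matrix (Fin n) (Fin n) ℝ} (hg : IsMetric g)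
    {b : ℝ} (hb : 0 < b) (Ω : Set (E n)) :
    perimeter (scale (b ^ 2) g) Ω ≤ ENNReal.ofReal (b ^ (n - 1)) * perimeter g Ω := by
  unfold perimeter
  refine iSup₂_le fun X hX => ?_
  have hY : IsTestField g (fun y => b • X y) := by
    refine ⟨hX.smooth.const_smul b, ?_, fun x => ?_⟩
    · exact hX.supp.comp_left (g := fun v : E n => b • v) (smul_zero b)
    · refine le_trans (le_of_eq ?_) (hX.le_one x)
      refine Finset.sum_congr rfl fun i _ => Finset.sum_congr rfl fun j _ => ?_
      simp only [scale, PiLp.smul_apply, smul_eq_mul, Matrix.smul_apply]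
      ring
  have h1 : ∫ x in Ω, divergence (scale (b ^ 2) g) X x ∂(vol (scale (b ^ 2) g)) =
      b ^ (n - 1) * ∫ x in Ω, divergence g (fun y => b • X y) x ∂(vol g) := by
    have h2 : b ^ n = b ^ (n - 1) * b := by
      rw [← pow_succ]
      congr 1
      omega
    simp only [scaleB_div g hb, scaleB_div_smul]
    rw [scaleB_vol g hb, Measure.restrict_smul, integral_smul_measure,
      ENNReal.toReal_ofReal (pow_pos hb n).le, integral_const_mul, smul_eq_mul, h2, mul_assoc]
  rw [h1, ENNReal.ofReal_mul (pow_pos hb _).le]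
  gcongr
  exact le_iSup₂ (f := fun (X : E n → E n) (_ : IsTestField g X) =>
    ENNReal.ofReal (∫ x in Ω, divergence g X x ∂(vol g))) _ hY

theorem area_scale (hn : 1 ≤ n) {g : E n → Matrix (Fin n) (Fin n) ℝ} (hg : IsMetric g)
    {b : ℝ} (hb : 0 < b) {ρ : E n → ℝ} (hρ : IsDefiningFunction ρ) :
    area (scale (b ^ 2) g) ρ ≤ ENNReal.ofReal (b ^ (n - 1)) * area g ρ := by
  unfold area
  rw [← lintegral_const_mul' _ _ ENNReal.ofReal_ne_top]
  refine le_of_eq (lintegral_congr fun x => ?_)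
  rw [← ENNReal.ofReal_mul (pow_pos hb _).le]
  congr 1
  have hdet : (g x).det ≠ 0 := (det_pos hg x).ne'
  have hb2 : b ^ 2 ≠ 0 := (pow_pos hb 2).ne'
  have h2 : b ^ n = b ^ (n - 1) * b := by
    rw [← pow_succ]
    congr 1
    omega
  have h1 : ∑ i, ∑ j, (scale (b ^ 2) g x)⁻¹ i j * pd i ρ x * pd j ρ x =
      (b ^ 2)⁻¹ * ∑ i, ∑ j, (g x)⁻¹ i j * pd i ρ x * pd j ρ x := by
    unfold scale
    rw [scaleB_inv (g x) hb2 hdet, Finset.mul_sum]
    refine Finset.sum_congr rfl fun i _ => ?_
    rw [Finset.mul_sum]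
    refine Finset.sum_congr rfl fun j _ => ?_
    rw [Matrix.smul_apply, smul_eq_mul]
    ring
  rw [h1, density_scale g hb, Real.sqrt_mul (inv_nonneg.2 (sq_nonneg b)), Real.sqrt_inv,
    Real.sqrt_sq hb.le, h2]
  field_simp

theorem modelArea_scale {κ : ℝ} (hκ : κ < 0) (r : ℝ) :
    √(-κ) ^ (n - 1) * modelArea n κ r = areaM n (√(-κ) * r) := by
  have hb : 0 < √(-κ) := Real.sqrt_pos.2 (by linarith)
  unfold modelArea areaM sn
  rw [div_pow]
  have h1 : ballVolume n = om n := rfl
  rw [h1]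
  field_simp

theorem modelVolume_scale (hn : 1 ≤ n) {κ : ℝ} (hκ : κ < 0) (r : ℝ) :
    √(-κ) ^ n * modelVolume n κ r = volM n (√(-κ) * r) := by
  have hb : 0 < √(-κ) := Real.sqrt_pos.2 (by linarith)
  unfold modelVolume volM sn
  have h1 : ballVolume n = om n := rfl
  rw [h1]
  set b := √(-κ) with hbd
  have h2 : ∫ t in (0 : ℝ)..r, (Real.sinh (b * t) / b) ^ (n - 1) =
      (b ^ (n - 1))⁻¹ * ∫ t in (0 : ℝ)..r, Real.sinh (b * t) ^ (n - 1) := by
    rw [← intervalIntegral.integral_const_mul]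
    refine intervalIntegral.integral_congr fun t _ => ?_
    simp only [div_pow]
    field_simp
  have h3 : b * ∫ t in (0 : ℝ)..r, Real.sinh (b * t) ^ (n - 1) =
      ∫ t in (0 : ℝ)..(b * r), Real.sinh t ^ (n - 1) := by
    have h4 := intervalIntegral.mul_integral_comp_mul_left (a := 0) (b := r)
      (f := fun t => Real.sinh t ^ (n - 1)) b
    rw [mul_zero] at h4
    exact h4
  have h5 : b ^ n = b ^ (n - 1) * b := by
    rw [← pow_succ]
    congr 1
    omega
  rw [h2, ← h3, h5]
  field_simp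

end Vale.Agent.Lib.P219.Co
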