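import Vale.Agent.Lib.P219.Co.ConvB
import Vale.Agent.Lib.P219.Co.ConvC
import Vale.Agent.Lib.P219.Co.ScaleB
import Vale.Agent.Lib.P219.K.FinalH

/-!
# P219: curvature `≤ κ < 0` in coordinates, for every dimension with certificates
-/

open scoped ContDiff ENNReal
open MeasureTheory

namespace Vale.Agent.Lib.P219.Co

variable {n : ℕ}

theorem isCartanHadamard_of_secLe {g : E n → Matrix (Fin n) (Fin n) ℝ} {κ : ℝ} (hκ : κ ≤ 0)
    (hg : IsCompleteSecLe κ g) : IsCartanHadamard g :=
  ⟨hg.metric, hg.complete, fun x u v h => (hg.sec_le x u v h).trans hκ⟩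

theorem isCHm_of_coord {g : E n → Matrix (Fin n) (Fin n) ℝ} (hg : IsCompleteSecLe (-1) g) :
    IsCHm (toG g) (toΓ g) := by
  have hCH := isCH_of_coord (isCartanHadamard_of_secLe (by norm_num) hg)
  refine ⟨hCH.metric, hCH.lc, hCH.complete, fun x u v => ?_⟩
  by_cases h : LinearIndependent ℝ ![u.ofLp, v.ofLp]
  · have hs := hg.sec_le x u.ofLp v.ofLp h
    have hli : LinearIndependent ℝ ![u, v] := by
      rw [LinearIndependent.pair_iff] at h ⊢
      intro s t hst
      apply h s t
      have := congrArg WithLp.ofLp hst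
      simpa using this
    have hD := gram2_pos hCH.metric x u v hli
    have hc : (curv (toΓ g) x u v v).ofLp = curvature g x u.ofLp v.ofLp v.ofLp := by
      funext l
      exact curv_toΓ hg.metric x u v v l
    have hip : ∀ a b : E n, toG g x a b = ip g x a.ofLp b.ofLp := fun a b => bil_apply _ _ _
    unfold sectional at hs
    rw [← hc, ← hip, ← hip, ← hip, ← hip, div_le_iff₀ hD, neg_one_mul] at hs
    exact hs
  · have hli : ¬ LinearIndependent ℝ ![u, v] := by
      intro hli
      apply h
      rw [LinearIndependent.pair_iff] at hli ⊢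
      intro s t hst
      apply hli s t
      ext i
      have := congrFun hst i
      simpa using this
    have h0 : toG g x (curv (toΓ g) x u v v) u ≤ 0 := hCH.sec x u v
    have h1 : toG g x u u * toG g x v v - toG g x u v ^ 2 = 0 := by
      rw [LinearIndependent.pair_iff] at hli
      push Not at hli
      obtain ⟨s, t, hst, hne⟩ := hli
      by_cases ht : t = 0
      · have hs : s ≠ 0 := fun hs => hne hs ht
        have hu : u = 0 := by
          rw [ht, zero_smul, add_zero] at hst
          exact (smul_eq_zero.mp hst).resolve_left hs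
        rw [hu]
        simp
      · have hv : v = (-(s / t)) • u := by
          have h1 : t • v = -(s • u) := by
            rw [add_comm] at hst
            exact eq_neg_of_add_eq_zero_left hst
          have h2 : v = t⁻¹ • (t • v) := by rw [smul_smul, inv_mul_cancel₀ ht, one_smul]
          rw [h2, h1, smul_neg, smul_smul, neg_smul]
          congr 2
          rw [div_eq_inv_mul]
        rw [hv]
        simp only [map_smul, smul_apply, smul_eq_mul]
        ring
    rw [h1, neg_zero]
    exact h0

/-- the generalized Cartan-Hadamard inequality from certificates -/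
theorem modelInequality_of_hasKerR (hn : 2 ≤ n) (hk : HasKer n) {Rm : ℝ}
    (hker : ∀ R, 0 < R → R ≤ Rm → HasKerR n R) {κ : ℝ} (hκ : κ < 0) {r : ℝ} (hr : 0 ≤ r)
    (hrm : √(-κ) * r ≤ Rm) : ModelInequality n κ r := by
  intro g hg
  have hb : 0 < √(-κ) := Real.sqrt_pos.2 (by linarith)
  have hb2 : √(-κ) ^ 2 = -κ := Real.sq_sqrt (by linarith)
  have hb' : 0 < √(-κ) ^ 2 := by positivity
  have hg1 : IsCompleteSecLe (-1) (scale (√(-κ) ^ 2) g) := by
    have := isCompleteSecLe_scale hg hb'
    have e : (√(-κ) ^ 2)⁻¹ * κ = -1 := by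
      rw [hb2, inv_neg, neg_mul, inv_mul_cancel₀ hκ.ne]
    rwa [e] at this
  have hCH := isCHm_of_coord hg1
  have hbn : 0 < √(-κ) ^ n := pow_pos hb _
  have hbn1 : 0 < √(-κ) ^ (n - 1) := pow_pos hb _
  have hV : ∀ Ω : Set (E n), ENNReal.ofReal (modelVolume n κ r) ≤ vol g Ω →
      ENNReal.ofReal (volM n (√(-κ) * r)) ≤ vol (scale (√(-κ) ^ 2) g) Ω := by
    intro Ω h
    rw [vol_scale hg.metric hb, ← modelVolume_scale (by omega) hκ, ENNReal.ofReal_mul hbn.le]
    gcongr
  have hA : ∀ P P' : ℝ≥0∞, ENNReal.ofReal (areaM n (√(-κ) * r)) ≤ P' →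
      P' ≤ ENNReal.ofReal (√(-κ) ^ (n - 1)) * P → ENNReal.ofReal (modelArea n κ r) ≤ P := by
    intro P P' h1 h2
    have h3 := h1.trans h2
    rw [← modelArea_scale hκ, ENNReal.ofReal_mul hbn1.le] at h3
    exact (ENNReal.mul_le_mul_iff_right (ENNReal.ofReal_pos.2 hbn1).ne' ENNReal.ofReal_ne_top).1 h3
  refine ⟨fun Ω hΩ hm h => ?_, fun ρ hρ h => ?_⟩
  · refine hA _ _ ?_ (perimeter_scale (by omega) hg.metric hb Ω)
    have h1 := hV Ω h
    rw [← gvol_toG] at h1
    rw [← per_toG]
    exact isoperimetric_perH hn hk hker _ _ hCH Ω hΩ hm _ (by positivity) hrm h1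
  · refine hA _ _ ?_ (area_scale (by omega) hg.metric hb hρ)
    have h1 := hV _ h
    rw [← gvol_toG] at h1
    rw [← area_toG hg1.metric hρ]
    exact isoperimetric_areaH hn hk hker _ _ hCH ρ (isDefiningFunction_iff ρ hρ) _
      (by positivity) hrm h1

end Vale.Agent.Lib.P219.Co
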