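import Vale.Agent.Lib.P219.Co.MainNeg
import Vale.Agent.Lib.P219.Co.DefsNegRi
import Vale.Agent.Lib.P219.K.Ri.MainX

/-!
# P219: the equality case for curvature `≤ κ < 0` in coordinates
-/

open scoped ContDiff ENNReal
open MeasureTheory

namespace Vale.Agent.Lib.P219.Co

variable {n : ℕ}

theorem fderiv_coordAt {φ : E n → E n} {w : E n} (hd : DifferentiableAt ℝ φ w) (i k : Fin n) :
    fderiv ℝ φ w (EuclideanSpace.single i 1) k = pd i (fun y => φ y k) w := by
  have h := ((EuclideanSpace.proj (𝕜 := ℝ) k : E n →L[ℝ] ℝ).hasFDerivAt.comp w hd.hasFDerivAt)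
  have h1 : fderiv ℝ (fun y => φ y k) w
      = (EuclideanSpace.proj (𝕜 := ℝ) k : E n →L[ℝ] ℝ).comp (fderiv ℝ φ w) := h.fderiv
  unfold pd
  rw [h1]
  rfl

/-- the equality case from strict certificates -/
theorem modelRigidity_of_strict (hn : 2 ≤ n) (hk : HasKer n) (hker : ∀ R, 0 < R → HasKerR n R)
    (hc : ∀ R, 0 < R → ∃ c : RawCertH n R, c.Strict) {κ : ℝ} (hκ : κ < 0) {r : ℝ} (hr : 0 ≤ r) :
    ModelRigidity n κ r := by
  intro g hg ρ hρ hvol harea
  have hb : 0 < √(-κ) := Real.sqrt_pos.2 (by linarith)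
  have hb2 : √(-κ) ^ 2 = -κ := Real.sq_sqrt (by linarith)
  have hb' : 0 < √(-κ) ^ 2 := by positivity
  have hg1 : IsCompleteSecLe (-1) (scale (√(-κ) ^ 2) g) := by
    have := isCompleteSecLe_scale hg hb'
    have e : (√(-κ) ^ 2)⁻¹ * κ = -1 := by
      rw [hb2, inv_neg, neg_mul, inv_mul_cancel₀ hκ.ne]
    rwa [e] at this
  have hCH := isCHm_of_coord hg1
  have hbn : 0 < √(-κ) ^ n := pow_pos hb _
  have hbn1 : 0 < √(-κ) ^ (n - 1) := pow_pos hb _
  have ho : IsOpen {x | ρ x < 0} := isOpen_lt hρ.smooth.continuous continuous_const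
  have hV : gvol (toG (scale (√(-κ) ^ 2) g)) {x | ρ x < 0}
      = ENNReal.ofReal (volM n (√(-κ) * r)) := by
    rw [gvol_toG, vol_scale hg.metric hb, hvol, ← modelVolume_scale (by omega) hκ,
      ENNReal.ofReal_mul hbn.le]
  rcases hr.eq_or_lt with h0 | hpos
  · -- empty domain
    have h1 : modelRadius κ r = 0 := by
      rw [← h0, modelRadius]
      simp
    have hne : {x | ρ x < 0} = ∅ := by
      by_contra hne
      have hne' := Set.nonempty_iff_ne_empty.2 hne
      obtain ⟨H, hH⟩ := exists_HDataH_of_isCHm (by omega) _ _ hCH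
      have hop := H.vol_isOpenPosMeasure
      have h2 : H.vol {x | ρ x < 0} ≠ 0 := (ho.measure_pos H.vol hne').ne'
      apply h2
      rw [vol_eq_gvol hH, hV, ← h0, mul_zero, volM_zero, ENNReal.ofReal_zero]
    rw [hne]
    refine ⟨id, contDiff_id.contDiffOn, ?_, ?_⟩
    · rw [h1, Metric.ball_zero]
      exact Set.bijOn_empty _
    · intro w hw
      rw [h1, Metric.ball_zero] at hw
      exact absurd hw (Set.notMem_empty _)
  · have hR : 0 < √(-κ) * r := mul_pos hb hpos
    have hker' : ∀ S, 0 < S → S ≤ √(-κ) * r + 1 → HasKerR n S := fun S hS _ => hker S hS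
    have hA : P219G.area (toG (scale (√(-κ) ^ 2) g)) ρ
        = ENNReal.ofReal (areaM n (√(-κ) * r)) := by
      apply le_antisymm
      · rw [area_toG hg1.metric hρ]
        refine (area_scale (by omega) hg.metric hb hρ).trans (le_of_eq ?_)
        rw [harea, ← modelArea_scale hκ, ENNReal.ofReal_mul hbn1.le]
      · exact isoperimetric_areaH hn hk hker' _ _ hCH ρ (isDefiningFunction_iff ρ hρ) _
          hR.le (by linarith) hV.ge
    obtain ⟨c, hcs⟩ := hc _ hR
    obtain ⟨φ, h1, h2, h3⟩ := rigidity_areaH hn hk hR (by linarith) hker' hcs _ _ hCH ρ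
      (isDefiningFunction_iff ρ hρ) hV hA
    have hmem : ∀ y : E n, y ∈ Metric.ball (0 : E n) (modelRadius κ r) ↔
        √(-κ) • y ∈ Metric.ball (0 : E n) (Real.tanh (√(-κ) * r / 2)) := by
      intro y
      rw [mem_ball_zero_iff, mem_ball_zero_iff, norm_smul, Real.norm_of_nonneg hb.le, modelRadius,
        lt_div_iff₀ hb, mul_comm]
    have hsm : ContDiff ℝ ∞ (fun y : E n => √(-κ) • y) := contDiff_const_smul _
    refine ⟨fun y => φ (√(-κ) • y), ?_, ?_, ?_⟩
    · exact h1.comp hsm.contDiffOn fun y hy => (hmem y).1 hy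
    · refine h2.comp ⟨fun y hy => (hmem y).1 hy, ?_, ?_⟩
      · intro a _ b _ hab
        exact smul_right_injective _ hb.ne' hab
      · intro z hz
        refine ⟨(√(-κ))⁻¹ • z, ?_, ?_⟩
        · rw [hmem, smul_smul, mul_inv_cancel₀ hb.ne', one_smul]
          exact hz
        · simp only [smul_smul, mul_inv_cancel₀ hb.ne', one_smul]
    · intro y hy i j
      have hy' := (hmem y).1 hy
      have hd : DifferentiableAt ℝ φ (√(-κ) • y) :=
        ((h1.differentiableOn (by simp)) _ hy').differentiableAt (Metric.isOpen_ball.mem_nhds hy')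
      have hd2 : HasFDerivAt (fun y : E n => φ (√(-κ) • y))
          (√(-κ) • fderiv ℝ φ (√(-κ) • y)) y := by
        have h4 : HasFDerivAt (fun y : E n => √(-κ) • y)
            (√(-κ) • ContinuousLinearMap.id ℝ (E n)) y :=
          (√(-κ) • ContinuousLinearMap.id ℝ (E n)).hasFDerivAt
        have h5 := hd.hasFDerivAt.comp y h4
        refine h5.congr_fderiv ?_
        ext v
        simp
      have e := h3 _ hy' (EuclideanSpace.single i 1) (EuclideanSpace.single j 1)
      have e2 : toG (scale (√(-κ) ^ 2) g) (φ (√(-κ) • y))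
          (fderiv ℝ φ (√(-κ) • y) (EuclideanSpace.single i 1))
          (fderiv ℝ φ (√(-κ) • y) (EuclideanSpace.single j 1))
          = ∑ k, ∑ l, g (φ (√(-κ) • y)) k l
            * (√(-κ) • fderiv ℝ φ (√(-κ) • y)) (EuclideanSpace.single i 1) k
            * (√(-κ) • fderiv ℝ φ (√(-κ) • y)) (EuclideanSpace.single j 1) l := by
        refine (bil_apply _ _ _).trans ?_
        refine Finset.sum_congr rfl fun k _ => Finset.sum_congr rfl fun l _ => ?_
        rw [scaleA_apply]
        simp only [smul_apply, PiLp.smul_apply, smul_eq_mul]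
        ring
      rw [e2, ← hd2.fderiv] at e
      simp only [fderiv_coordAt hd2.differentiableAt] at e
      rw [e, EuclideanSpace.inner_single_left]
      have hn1 : 1 - ‖√(-κ) • y‖ ^ 2 = 1 + κ * ‖y‖ ^ 2 := by
        rw [norm_smul, Real.norm_of_nonneg hb.le, mul_pow, hb2]
        ring
      rw [hn1]
      by_cases hij : i = j
      · subst hij
        simp
      · simp [hij]

end Vale.Agent.Lib.P219.Co
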