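import Vale.Agent.Lib.P219.Co.DefsNeg
import Vale.Agent.Lib.P219.Co.ConvA

/-!
# P219: scaling of the metric, connection and curvature

`(c A)⁻¹ = c⁻¹ A⁻¹` (`det A > 0`: `det_pos`), `pd i (c f) = c pd i f`.  So the Christoffel symbols and
`riemann` do not change, `ip` is multiplied by `c` and `sectional` is divided by `c`.
-/

open scoped ContDiff ENNReal
open MeasureTheory

namespace Vale.Agent.Lib.P219.Co

variable {n : ℕ}

/-- the metric `c g` -/
def scale (c : ℝ) (g : E n → Matrix (Fin n) (Fin n) ℝ) : E n → Matrix (Fin n) (Fin n) ℝ :=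
  fun x => c • g x

theorem scaleA_apply (c : ℝ) (g : E n → Matrix (Fin n) (Fin n) ℝ) (x : E n) (i j : Fin n) :
    scale c g x i j = c * g x i j := rfl

theorem scaleA_ip (c : ℝ) (g : E n → Matrix (Fin n) (Fin n) ℝ) (x : E n) (v w : Fin n → ℝ) :
    ip (scale c g) x v w = c * ip g x v w := by
  unfold ip
  rw [Finset.mul_sum]
  refine Finset.sum_congr rfl fun i _ => ?_
  rw [Finset.mul_sum]
  refine Finset.sum_congr rfl fun j _ => ?_
  rw [scaleA_apply]
  ring

theorem isMetric_scale {g : E n → Matrix (Fin n) (Fin n) ℝ} (hg : IsMetric g) {c : ℝ}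
    (hc : 0 < c) : IsMetric (scale c g) := by
  refine ⟨fun i j => ?_, fun x i j => ?_, fun x v hv => ?_⟩
  · have h : (fun x => scale c g x i j) = fun x => c * g x i j := rfl
    rw [h]
    exact contDiff_const.mul (hg.smooth i j)
  · rw [scaleA_apply, scaleA_apply, hg.symm x i j]
  · have h := scaleA_ip c g x v v
    unfold ip at h
    rw [h]
    exact mul_pos hc (hg.pos x v hv)

theorem scaleA_pd {g : E n → Matrix (Fin n) (Fin n) ℝ} (hg : IsMetric g) (c : ℝ)
    (l i j : Fin n) (x : E n) :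
    pd l (fun y => scale c g y i j) x = c * pd l (fun y => g y i j) x := by
  unfold pd
  have h : (fun y => scale c g y i j) = fun y => c * g y i j := rfl
  rw [h, fderiv_const_mul (((hg.smooth i j).differentiable (by simp)) x)]
  rfl

theorem scaleA_inv {g : E n → Matrix (Fin n) (Fin n) ℝ} (hg : IsMetric g) {c : ℝ} (hc : 0 < c)
    (x : E n) (k l : Fin n) : (scale c g x)⁻¹ k l = c⁻¹ * (g x)⁻¹ k l := by
  have hu : IsUnit (g x).det := isUnit_iff_ne_zero.2 (det_pos hg x).ne'
  have h : (scale c g x)⁻¹ = c⁻¹ • (g x)⁻¹ := by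
    apply Matrix.inv_eq_right_inv
    show (c • g x) * (c⁻¹ • (g x)⁻¹) = 1
    rw [Matrix.smul_mul, Matrix.mul_smul, smul_smul, mul_inv_cancel₀ hc.ne', one_smul,
      Matrix.mul_nonsing_inv _ hu]
  rw [h]
  rfl

theorem christoffel_scale {g : E n → Matrix (Fin n) (Fin n) ℝ} (hg : IsMetric g) {c : ℝ}
    (hc : 0 < c) (k i j : Fin n) : christoffel (scale c g) k i j = christoffel g k i j := by
  funext x
  unfold christoffel
  congr 1
  refine Finset.sum_congr rfl fun l _ => ?_
  rw [scaleA_inv hg hc, scaleA_pd hg, scaleA_pd hg, scaleA_pd hg]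
  have h : c⁻¹ * c = 1 := inv_mul_cancel₀ hc.ne'
  calc c⁻¹ * (g x)⁻¹ k l * (c * pd i (fun y => g y j l) x + c * pd j (fun y => g y i l) x
        - c * pd l (fun y => g y i j) x)
      = (c⁻¹ * c) * ((g x)⁻¹ k l * (pd i (fun y => g y j l) x + pd j (fun y => g y i l) x
        - pd l (fun y => g y i j) x)) := by ring
    _ = _ := by rw [h, one_mul]

theorem scaleA_curvature {g : E n → Matrix (Fin n) (Fin n) ℝ} (hg : IsMetric g) {c : ℝ}
    (hc : 0 < c) (x : E n) (u v w : Fin n → ℝ) :
    curvature (scale c g) x u v w = curvature g x u v w := by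
  unfold curvature riemann
  simp only [christoffel_scale hg hc]

theorem sectional_scale {g : E n → Matrix (Fin n) (Fin n) ℝ} (hg : IsMetric g) {c : ℝ}
    (hc : 0 < c) (x : E n) (u v : Fin n → ℝ) :
    sectional (scale c g) x u v = c⁻¹ * sectional g x u v := by
  unfold sectional
  rw [scaleA_curvature hg hc, scaleA_ip, scaleA_ip, scaleA_ip, scaleA_ip]
  have h : c * ip g x u u * (c * ip g x v v) - (c * ip g x u v) ^ 2
      = c * (c * (ip g x u u * ip g x v v - ip g x u v ^ 2)) := by ring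
  rw [h, mul_div_mul_left _ _ hc.ne', inv_mul_eq_div, div_div, mul_comm c]

theorem isCompleteSecLe_scale {g : E n → Matrix (Fin n) (Fin n) ℝ} {κ : ℝ}
    (hg : IsCompleteSecLe κ g) {c : ℝ} (hc : 0 < c) :
    IsCompleteSecLe (c⁻¹ * κ) (scale c g) := by
  refine ⟨isMetric_scale hg.metric hc, fun p w => ?_, fun x u v huv => ?_⟩
  · obtain ⟨γ, v, hγ, h0, h1⟩ := hg.complete p w
    refine ⟨γ, v, ⟨hγ.velocity, fun t k => ?_⟩, h0, h1⟩
    have h2 := hγ.equation t k
    simp only [christoffel_scale hg.metric hc]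
    exact h2
  · rw [sectional_scale hg.metric hc]
    exact mul_le_mul_of_nonneg_left (hg.sec_le x u v huv) (inv_nonneg.2 hc.le)

end Vale.Agent.Lib.P219.Co
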